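import Vale.Agent.P108.H972.Grow1
import Vale.Agent.P108.Area.Meas
import Vale.Agent.P108.Sk.Main

/-!
# P108: the block [DECOR] of the skeleton
-/

open Set MeasureTheory
open scoped Classical ENNReal

namespace Vale.Agent.P108.H972

open P108C Vale.Agent.P108 Vale.Agent.P108.Dyn Vale.Agent.P108.H786 Vale.Agent.P108.H504
  Vale.Agent.P108.Area

variable {k s : ℝ}

/-- the defects as a family indexed by the radius -/
def DP (k s : ℝ) (z : ℝ × ℝ) (o : ℤ) (R : ℕ) : Prop := Sk.Defect k s (ao k z) o R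

lemma perP_DP (k s : ℝ) : PerP (DP k s) where
  meas o j := meas_defect k s o j
  per z a b := by
    funext o j
    unfold DP
    rw [ao_add_ip]

lemma Bm_eq (k s : ℝ) (z : ℝ × ℝ) : Sk.Bm k s (ao k z) = zoneL 1 Sk.cZ id (DP k s z) := by
  ext t
  simp only [Sk.Bm, zoneL, DP, mem_ofPred_eq, id, Nat.cast_one, one_mul]
  constructor
  · rintro ⟨o, R, h1, h2, h3⟩
    rw [abs_le] at h2
    exact ⟨o, R, h1, h3, by linarith [h2.1], by linarith [h2.2]⟩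
  · rintro ⟨o, R, h1, h3, h4, h5⟩
    exact ⟨o, R, h1, by rw [abs_le]; constructor <;> linarith, h3⟩

lemma Bp_eq (k s : ℝ) (z : ℝ × ℝ) : Sk.Bp k s (ao k z) = zoneR 1 Sk.cZ id (DP k s z) := by
  ext t
  simp only [Sk.Bp, zoneR, DP, mem_ofPred_eq, id, Nat.cast_one, one_mul]
  constructor
  · rintro ⟨o, R, h1, h2, h3⟩
    rw [abs_le] at h2
    exact ⟨o, R, h1, h3, by linarith [h2.1], by linarith [h2.2]⟩
  · rintro ⟨o, R, h1, h3, h4, h5⟩
    exact ⟨o, R, h1, by rw [abs_le]; constructor <;> linarith, h3⟩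

/-- trace of long zones -/
lemma longZ_trace {S : Set ℤ} {n : ℕ} {u w : ℤ}
    (h : ∀ i ∈ S, ∃ b : ℤ, b ≤ i ∧ i < b + n ∧ ∀ t, b ≤ t → t < b + n → t ∈ S) :
    Sk.LongZ n u w (S ∩ Ico u w) := by
  refine ⟨inter_subset_right, fun i hi => ?_⟩
  obtain ⟨b, h1, h2, h3⟩ := h i hi.1
  exact ⟨b, h1, h2, fun t ht1 ht2 ht3 ht4 => ⟨h3 t ht1 ht2, ht3, ht4⟩⟩

/-- the zones of `Bm` are long -/
lemma Bm_long (hk : 1 < k) {a : ℤ → ℝ} : ∀ i ∈ Sk.Bm k s a, ∃ b : ℤ, b ≤ i ∧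
    i < b + Sk.s0 k ∧ ∀ t, b ≤ t → t < b + Sk.s0 k → t ∈ Sk.Bm k s a := by
  rintro i ⟨o, R, h1, h2, h4⟩
  have h3 : (Sk.s0 k : ℤ) ≤ R := by exact_mod_cast h1.s0_le
  have h0 : (1 : ℤ) ≤ Sk.s0 k := by exact_mod_cast Sk.one_le_s0 hk
  rw [abs_le] at h2
  rcases lt_or_ge i (o - R + Sk.s0 k) with h | h
  · refine ⟨o - R, by linarith [h2.1], h, fun t ht1 ht2 => ⟨o, R, h1, ?_, h4⟩⟩
    rw [abs_le]; constructor <;> linarith
  · refine ⟨i + 1 - Sk.s0 k, by omega, by omega, fun t ht1 ht2 => ⟨o, R, h1, ?_, h4⟩⟩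
    rw [abs_le]; constructor <;> linarith [h2.2]

lemma Bp_long (hk : 1 < k) {a : ℤ → ℝ} : ∀ i ∈ Sk.Bp k s a, ∃ b : ℤ, b ≤ i ∧
    i < b + Sk.s0 k ∧ ∀ t, b ≤ t → t < b + Sk.s0 k → t ∈ Sk.Bp k s a := by
  rintro i ⟨o, R, h1, h2, h4⟩
  have h3 : (Sk.s0 k : ℤ) ≤ R := by exact_mod_cast h1.s0_le
  have h0 : (1 : ℤ) ≤ Sk.s0 k := by exact_mod_cast Sk.one_le_s0 hk
  rw [abs_le] at h2
  rcases lt_or_ge i (o - R + Sk.s0 k) with h | h
  · refine ⟨o - R, by linarith [h2.1], h, fun t ht1 ht2 => ⟨o, R, h1, ?_, h4⟩⟩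
    rw [abs_le]; constructor <;> linarith
  · refine ⟨i + 1 - Sk.s0 k, by omega, by omega, fun t ht1 ht2 => ⟨o, R, h1, ?_, h4⟩⟩
    rw [abs_le]; constructor <;> linarith [h2.2]

/-- the deterministic setting for the closure of a left event -/
lemma setting_left (hL : Sk.LongCl) (hk : 2 ≤ k) (hs : s ∈ Icc (0 : ℝ) 1) {z : ℝ × ℝ}
    (hz : (0 : ℤ) ∉ Sk.Eset k s (ao k z)) (r : ℕ) :
    Sk.Setting k s (ao k z) (-(r : ℤ)) 0
      (Cl Sk.cc r (Sk.Bm k s (ao k z) ∩ Ico (-(r : ℤ)) 0)) := by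
  have hcc : (0 : ℝ) < Sk.cc := by norm_num
  have hsub : Cl Sk.cc r (Sk.Bm k s (ao k z) ∩ Ico (-(r : ℤ)) 0) ⊆ Ico (-(r : ℤ)) 0 :=
    Cl_Ico_subset hcc inter_subset_right
  refine ⟨hs.1, hs.2, Sk.abs_ao_le hk z, fun n => ?_, ?_, ?_⟩
  · exact nclosed_of_subset hcc hsub (by omega) (nclosed_Cl _ _ _)
  · exact hL.1 _ _ _ _ _ _ hcc (longZ_trace (Bm_long (by linarith)))
  · rintro i ⟨h1, h2⟩
    exact subset_Cl _ _ _ ⟨Sk.mem_Bm_of hz h2.2 h1, h2⟩

/-- the deterministic setting for the closure of a right event -/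
lemma setting_right (hL : Sk.LongCl) (hk : 2 ≤ k) (hs : s ∈ Icc (0 : ℝ) 1) {z : ℝ × ℝ}
    (hz : (0 : ℤ) ∉ Sk.Eset k s (ao k z)) (r : ℕ) :
    Sk.Setting k s (ao k z) 1 (1 + (r : ℤ))
      (Cl Sk.cc r (Sk.Bp k s (ao k z) ∩ Ico 1 (1 + (r : ℤ)))) := by
  have hcc : (0 : ℝ) < Sk.cc := by norm_num
  have hsub : Cl Sk.cc r (Sk.Bp k s (ao k z) ∩ Ico 1 (1 + (r : ℤ))) ⊆ Ico 1 (1 + (r : ℤ)) :=
    Cl_Ico_subset hcc inter_subset_right
  refine ⟨hs.1, hs.2, Sk.abs_ao_le hk z, fun n => ?_, ?_, ?_⟩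
  · exact nclosed_of_subset hcc hsub (by omega) (nclosed_Cl _ _ _)
  · exact hL.1 _ _ _ _ _ _ hcc (longZ_trace (Bp_long (by linarith)))
  · rintro i ⟨h1, h2⟩
    refine subset_Cl _ _ _ ⟨Sk.mem_Bp_of hz ?_ h1, h2⟩
    have := h2.1
    omega

/-- from the rate `9/10` to `Suf` -/
lemma suf_of_rate (hk : 10 ^ 10 ≤ k) {a : ℤ → ℝ} {p : ℤ} (hp : p ≤ -1)
    (h : ∀ m, p ≤ m → m ≤ -1 + 1 →
      k ^ (9 / 10 * ((-1 + 1 - m : ℤ) : ℝ)) * |D a p (m - 1)| ≤ |D a p (-1)|) :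
    Suf a p (-1) (kap k) 3 := by
  have hk0 : 0 < k := by linarith
  have hk1 : 1 ≤ k := by linarith
  have h0 : 1 ≤ |D a p (-1)| := by
    have h1 := h p le_rfl (by omega)
    rw [D_empty, abs_one, mul_one] at h1
    refine le_trans (Real.one_le_rpow hk1 ?_) h1
    have : (0 : ℝ) ≤ ((-1 + 1 - p : ℤ) : ℝ) := by
      have : (0 : ℤ) ≤ -1 + 1 - p := by omega
      exact_mod_cast this
    positivity
  refine ⟨fun h1 => ?_, fun m hm1 hm2 => ?_⟩
  · rw [h1, abs_zero] at h0; linarith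
  have h1 := h m hm1 hm2
  have hD := abs_nonneg (D a p (-1))
  have e : kap k ^ (-1 + 1 - m).toNat = k ^ (-(3 / 4) * ((-1 + 1 - m : ℤ) : ℝ)) := by
    unfold kap
    rw [← Real.rpow_natCast, ← Real.rpow_mul hk0.le]
    congr 2
    have h2 : (((-1 + 1 - m).toNat : ℕ) : ℤ) = -1 + 1 - m := by omega
    exact_mod_cast h2
  have h2 : 1 ≤ kap k ^ (-1 + 1 - m).toNat * k ^ (9 / 10 * ((-1 + 1 - m : ℤ) : ℝ)) := by
    rw [e, ← Real.rpow_add hk0]
    refine Real.one_le_rpow hk1 ?_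
    have h4 : (0 : ℝ) ≤ ((-1 + 1 - m : ℤ) : ℝ) := by
      have : (0 : ℤ) ≤ -1 + 1 - m := by omega
      exact_mod_cast this
    generalize ((-1 + 1 - m : ℤ) : ℝ) = x at h4 ⊢
    linarith
  have h3 : 0 ≤ kap k ^ (-1 + 1 - m).toNat := pow_nonneg (kap_pos hk).le _
  calc |D a p (m - 1)| = 1 * |D a p (m - 1)| := (one_mul _).symm
    _ ≤ (kap k ^ (-1 + 1 - m).toNat * k ^ (9 / 10 * ((-1 + 1 - m : ℤ) : ℝ))) *
        |D a p (m - 1)| := mul_le_mul_of_nonneg_right h2 (abs_nonneg _)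
    _ = kap k ^ (-1 + 1 - m).toNat *
        (k ^ (9 / 10 * ((-1 + 1 - m : ℤ) : ℝ)) * |D a p (m - 1)|) := by ring
    _ ≤ kap k ^ (-1 + 1 - m).toNat * |D a p (-1)| := mul_le_mul_of_nonneg_left h1 h3
    _ ≤ 3 * kap k ^ (-1 + 1 - m).toNat * |D a p (-1)| := by
        have : 0 ≤ kap k ^ (-1 + 1 - m).toNat * |D a p (-1)| := mul_nonneg h3 hD
        linarith

/-- mirror of `suf_of_rate` -/
lemma pre_of_rate (hk : 10 ^ 10 ≤ k) {a : ℤ → ℝ} {q : ℤ} (hq : 1 ≤ q)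
    (h : ∀ m, 1 ≤ m → m ≤ q + 1 →
      k ^ (9 / 10 * ((m - 1 : ℤ) : ℝ)) * |D a m q| ≤ |D a 1 q|) :
    Pre a 1 q (kap k) 3 := by
  have hk0 : 0 < k := by linarith
  have hk1 : 1 ≤ k := by linarith
  have h0 : 1 ≤ |D a 1 q| := by
    have h1 := h (q + 1) (by omega) le_rfl
    rw [D_empty', abs_one, mul_one] at h1
    refine le_trans (Real.one_le_rpow hk1 ?_) h1
    have : (0 : ℝ) ≤ ((q + 1 - 1 : ℤ) : ℝ) := by
      have : (0 : ℤ) ≤ q + 1 - 1 := by omega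
      exact_mod_cast this
    positivity
  refine ⟨fun h1 => ?_, fun m hm1 hm2 => ?_⟩
  · rw [h1, abs_zero] at h0; linarith
  have h1 := h (m + 1) (by omega) (by omega)
  have hD := abs_nonneg (D a 1 q)
  have e : kap k ^ (m - 1 + 1).toNat = k ^ (-(3 / 4) * ((m + 1 - 1 : ℤ) : ℝ)) := by
    unfold kap
    rw [← Real.rpow_natCast, ← Real.rpow_mul hk0.le]
    congr 2
    have h2 : (((m - 1 + 1).toNat : ℕ) : ℤ) = m + 1 - 1 := by omega
    exact_mod_cast h2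
  have h2 : 1 ≤ kap k ^ (m - 1 + 1).toNat * k ^ (9 / 10 * ((m + 1 - 1 : ℤ) : ℝ)) := by
    rw [e, ← Real.rpow_add hk0]
    refine Real.one_le_rpow hk1 ?_
    have h4 : (0 : ℝ) ≤ ((m + 1 - 1 : ℤ) : ℝ) := by
      have : (0 : ℤ) ≤ m + 1 - 1 := by omega
      exact_mod_cast this
    generalize ((m + 1 - 1 : ℤ) : ℝ) = x at h4 ⊢
    linarith
  have h3 : 0 ≤ kap k ^ (m - 1 + 1).toNat := pow_nonneg (kap_pos hk).le _
  calc |D a (m + 1) q| = 1 * |D a (m + 1) q| := (one_mul _).symm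
    _ ≤ (kap k ^ (m - 1 + 1).toNat * k ^ (9 / 10 * ((m + 1 - 1 : ℤ) : ℝ))) *
        |D a (m + 1) q| := mul_le_mul_of_nonneg_right h2 (abs_nonneg _)
    _ = kap k ^ (m - 1 + 1).toNat *
        (k ^ (9 / 10 * ((m + 1 - 1 : ℤ) : ℝ)) * |D a (m + 1) q|) := by ring
    _ ≤ kap k ^ (m - 1 + 1).toNat * |D a 1 q| := mul_le_mul_of_nonneg_left h1 h3
    _ ≤ 3 * kap k ^ (m - 1 + 1).toNat * |D a 1 q| := by
        have : 0 ≤ kap k ^ (m - 1 + 1).toNat * |D a 1 q| := mul_nonneg h3 hD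
        linarith

/-- at a base where the non-clean times are not dense -/
lemma clean_base (hk : 10 ^ 10 ≤ k) (hs : 0 ≤ s) {z : ℝ × ℝ} (h : ¬ Sk.NcMax k s (ao k z)) :
    9 * Real.sqrt k ≤ |ao k z 0| := by
  have h1 : ¬ ((0 : ℤ) ∈ Sk.NC k s (ao k z)) := fun h2 => h (Or.inl h2)
  have h2 : ¬ (|ao k z 0| < (1 + s) * k ^ (1 - Sk.ce)) := h1
  rw [not_lt] at h2
  refine le_trans ?_ h2
  have hk0 : 0 < k := by linarith
  have hk1 : 1 ≤ k := by linarith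
  have h3 : k ^ (1 - Sk.ce) ≤ (1 + s) * k ^ (1 - Sk.ce) := by
    have : 0 ≤ k ^ (1 - Sk.ce) := by positivity
    nlinarith
  refine le_trans ?_ h3
  rw [Real.sqrt_eq_rpow]
  have h4 : k ^ (1 / 10 : ℝ) * k ^ (1 / 2 : ℝ) ≤ k ^ (1 - Sk.ce) := by
    rw [← Real.rpow_add hk0]
    exact Real.rpow_le_rpow_of_exponent_le hk1 (by norm_num)
  have h5 : (9 : ℝ) ≤ k ^ (1 / 10 : ℝ) := by
    have h : ((10 : ℝ) ^ 10) ^ (1 / 10 : ℝ) ≤ k ^ (1 / 10 : ℝ) :=
      Real.rpow_le_rpow (by norm_num) hk (by norm_num)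
    refine le_trans ?_ h
    rw [← Real.rpow_natCast, ← Real.rpow_mul (by norm_num)]
    norm_num
  refine le_trans ?_ h4
  exact mul_le_mul_of_nonneg_right h5 (by positivity)

lemma two_le_s0 (hk : 10 ^ 10 ≤ k) : 2 ≤ Sk.s0 k := by
  have hk0 : 0 < k := by linarith
  have h1 : (10 : ℝ) ≤ k ^ (1 - Sk.cb) := by
    have h : ((10 : ℝ) ^ 10) ^ (1 - Sk.cb) ≤ k ^ (1 - Sk.cb) :=
      Real.rpow_le_rpow (by norm_num) hk (by norm_num)
    refine le_trans ?_ h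
    rw [← Real.rpow_natCast, ← Real.rpow_mul (by norm_num)]
    nth_rewrite 1 [← Real.rpow_one (10 : ℝ)]
    exact Real.rpow_le_rpow_of_exponent_le (by norm_num) (by norm_num)
  have h2 : 1 ≤ Real.log k := by
    rw [Real.le_log_iff_exp_le hk0]
    linarith [Real.exp_one_lt_d9]
  have h3 : (10 : ℝ) ≤ k ^ (1 - Sk.cb) * Real.log k ^ 2 := by nlinarith
  have h4 := Nat.le_ceil (k ^ (1 - Sk.cb) * Real.log k ^ 2)
  have h5 : (10 : ℝ) ≤ (Sk.s0 k : ℝ) := h3.trans h4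
  have h6 : 10 ≤ Sk.s0 k := by exact_mod_cast h5
  omega

/-- **[DECOR]** from [FREEZE], [GROW] and [LONG]. -/
theorem decor_of (hF : Sk.Freeze) (hD : Sk.DetGrow) (hL : Sk.LongCl) : Sk.Decor := by
  obtain ⟨k1, hF⟩ := hF
  obtain ⟨k2, hD⟩ := hD
  refine ⟨72000, max (10 ^ 10) (max k1 k2), by norm_num, fun k hk s hs N => ?_⟩
  have hk10 : 10 ^ 10 ≤ k := (le_max_left _ _).trans hk
  have hk1 : k1 ≤ k := (le_max_left _ _).trans ((le_max_right _ _).trans hk)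
  have hk2 : k2 ≤ k := (le_max_right _ _).trans ((le_max_right _ _).trans hk)
  have hccpos : (0 : ℝ) < Sk.cc := by norm_num
  have hcc40 : 40 * Sk.cc ≤ Sk.c0 := by norm_num
  have hR : ∀ (z : ℝ × ℝ) (o : ℤ) (j : ℕ), DP k s z o j → 2 ≤ id j := fun z o j h =>
    (two_le_s0 hk10).trans h.s0_le
  have hE : ∀ z ∈ (Sk.Nset k s)ᶜ, (0 : ℤ) ∉ Sk.Eset k s (ao k z) := fun z hz h =>
    hz (Or.inl (Or.inl h))
  have hM : ∀ z ∈ (Sk.Nset k s)ᶜ, ¬ Sk.NcMax k s (ao k z) := fun z hz h =>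
    hz (Or.inl (Or.inr h))
  have hNr : ∀ z ∈ (Sk.Nset k s)ᶜ, z ∉ Sk.Near k s := fun z hz h => hz (Or.inr h)
  have hG : Good k (DP k s) id 1 Sk.cZ 2 Sk.cc (Sk.Nset k s)ᶜ := by
    refine ⟨(meas_Nset k s).compl, fun z a b => not_congr (per_Nset k s z a b),
      fun z hz => clean_base hk10 hs.1 (hM z hz), ?_, ?_, ?_, ?_⟩
    · intro z hz z' o j ho hcl
      exact (hF k hk1 s hs z z' (hNr z hz) o j (Or.inl ho)
        (fun t ht => hcl t (by push_cast; exact ht))).symm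
    · intro z hz z' o j ho hcl
      exact (hF k hk1 s hs z z' (hNr z hz) o j (Or.inr ho)
        (fun t ht => hcl t (by push_cast; exact ht))).symm
    · refine growL_of_suf (θ := Sk.c0) hccpos hcc40 (by norm_num) (by norm_num) hR ?_
      intro z hz r p hev hr hp1 hp2 hdir
      rw [← Bm_eq] at hev hdir
      have hset := setting_left hL (by linarith) hs (hE z hz) r
      set X := Cl Sk.cc r (Sk.Bm k s (ao k z) ∩ Ico (-(r : ℤ)) 0) with hX
      have hzero : ∀ y : ℕ, 1 ≤ y → p + y ≤ 0 → (ms X (-(y : ℤ)) 0 : ℝ) < Sk.cc * y := by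
        intro y hy1 hy2
        have := hev.2.2 y hy1 (by omega)
        simp only [zero_sub] at this
        exact this
      have hgood : Sk.GoodWin X p (-1) := by
        intro y hy1 hy2
        refine ⟨hdir y hy1 (by omega), ?_⟩
        have h1 := hzero y hy1 (by omega)
        have e1 : (-1 : ℤ) + 1 - y = -(y : ℤ) := by ring
        have e2 : (-1 : ℤ) + 1 = 0 := by ring
        rw [e1, e2]
        refine h1.trans_le ?_
        have : (0 : ℝ) ≤ y := by positivity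
        exact mul_le_mul_of_nonneg_right (by norm_num) this
      have hd := (hD k hk2 s (ao k z) _ _ X hset p (-1) (by omega) (by omega) (by omega)
        hgood).1 (fun y hy1 hy2 => ?_)
      · exact suf_of_rate hk10 (by omega) hd
      · have e1 : (-1 : ℤ) + 1 - y = -(y : ℤ) := by ring
        have e2 : (-1 : ℤ) + 1 = 0 := by ring
        rw [e1, e2]
        constructor
        · refine (hzero y hy1 (by omega)).le.trans ?_
          have : (0 : ℝ) ≤ y := by positivity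
          exact mul_le_mul_of_nonneg_right (by norm_num) this
        · by_contra hcon
          rw [not_lt] at hcon
          exact hM z hz (Or.inr (Or.inl ⟨y, hy1, hcon⟩))
    · refine growR_of_pre (θ := Sk.c0) hccpos hcc40 (by norm_num) (by norm_num) hR ?_
      intro z hz r q hev hr hq1 hq2 hdir
      rw [← Bp_eq] at hev hdir
      have hset := setting_right hL (by linarith) hs (hE z hz) r
      set X := Cl Sk.cc r (Sk.Bp k s (ao k z) ∩ Ico 1 (1 + (r : ℤ))) with hX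
      have hzero : ∀ y : ℕ, 1 ≤ y → 1 + y ≤ q + 1 → (ms X 1 (1 + y) : ℝ) < Sk.cc * y := by
        intro y hy1 hy2
        have := hev.2.2 y hy1 (by omega)
        simp only [zero_add] at this
        exact this
      have hgood : Sk.GoodWin X 1 q := by
        intro y hy1 hy2
        refine ⟨?_, hdir y hy1 (by omega)⟩
        refine (hzero y hy1 (by omega)).trans_le ?_
        have : (0 : ℝ) ≤ y := by positivity
        exact mul_le_mul_of_nonneg_right (by norm_num) this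
      have hd := (hD k hk2 s (ao k z) _ _ X hset 1 q le_rfl (by omega) (by omega)
        hgood).2 (fun y hy1 hy2 => ?_)
      · exact pre_of_rate hk10 (by omega) hd
      · constructor
        · refine (hzero y hy1 (by omega)).le.trans ?_
          have : (0 : ℝ) ≤ y := by positivity
          exact mul_le_mul_of_nonneg_right (by norm_num) this
        · by_contra hcon
          rw [not_lt] at hcon
          exact hM z hz (Or.inr (Or.inr ⟨y, hy1, hcon⟩))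
  have hfin := hG.hdec hk10 (perP_DP k s) (by norm_num) (by norm_num) N
  simp only [← Bm_eq, ← Bp_eq] at hfin
  refine (measureReal_mono ?_).trans hfin
  rintro z ⟨⟨_, h2, h3⟩, h4⟩
  exact ⟨h4, h2, h3⟩

end Vale.Agent.P108.H972
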