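import Vale.Agent.P108.Cmb.Rec

/-!
# P108: classes of the one-sided events and the summation of the product estimate

* `Bz, Bm, Bp` : bad sets built from zones of defects;
* `cls` : the classes `(r, Π)` of the left event;
* `decor_of_classes` : summation of the product estimate over all pairs of classes.
-/

open Set MeasureTheory
open scoped Classical ENNReal

namespace Vale.Agent.P108.H972

open P108C

/-! ### summation over disjoint classes -/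

theorem decor_of_classes {Ω : Type*} [MeasurableSpace Ω] {μ : Measure Ω}
    {ι κ : Type*} [Countable ι] [Countable κ] {A A0 : ι → Set Ω} {B B0 : κ → Set Ω}
    (hA : ∀ i, MeasurableSet (A i)) (hB : ∀ j, MeasurableSet (B j))
    (dA : Pairwise (Function.onFun Disjoint A)) (dB : Pairwise (Function.onFun Disjoint B))
    {S : Set Ω} (hS : S ⊆ ⋃ i, ⋃ j, (A0 i ∩ B0 j)) {C : ℝ≥0∞}
    (h : ∀ i j, μ (A0 i ∩ B0 j) ≤ C * μ (A i) * μ (B j)) :
    μ S ≤ C * μ (⋃ i, A i) * μ (⋃ j, B j) := by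
  calc μ S ≤ μ (⋃ i, ⋃ j, (A0 i ∩ B0 j)) := measure_mono hS
    _ ≤ ∑' i, μ (⋃ j, (A0 i ∩ B0 j)) := measure_iUnion_le _
    _ ≤ ∑' i, ∑' j, μ (A0 i ∩ B0 j) := ENNReal.tsum_le_tsum fun i => measure_iUnion_le _
    _ ≤ ∑' i, ∑' j, C * μ (A i) * μ (B j) :=
        ENNReal.tsum_le_tsum fun i => ENNReal.tsum_le_tsum fun j => h i j
    _ = C * μ (⋃ i, A i) * μ (⋃ j, B j) := by
        rw [measure_iUnion dA hA, measure_iUnion dB hB]
        simp_rw [ENNReal.tsum_mul_left]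
        rw [ENNReal.tsum_mul_right, ENNReal.tsum_mul_left]

/-! ### the first one-sided event of a random set -/

/-- `(r, Π)` is a left class: `Π ⊆ [-r, 0)` triggers the left event at scale `r` for the first
time -/
def LCls (c : ℝ) (r : ℕ) (P : Set ℤ) : Prop :=
  P ⊆ Ico (-(r : ℤ)) 0 ∧ LeftEv c P 0 r ∧ ∀ r' : ℕ, r' < r → ¬ LeftEv c P 0 r'

/-- `(r, Π)` is a right class -/
def RCls (c : ℝ) (r : ℕ) (P : Set ℤ) : Prop :=
  P ⊆ Ico 1 (1 + (r : ℤ)) ∧ RightEv c P 0 r ∧ ∀ r' : ℕ, r' < r → ¬ RightEv c P 0 r'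

theorem exists_lcls {c : ℝ} {B : Set ℤ} {n : ℕ} (h : ∃ r ≤ n, LeftEv c B 0 r) :
    ∃ r ≤ n, LCls c r (B ∩ Ico (-(r : ℤ)) 0) := by
  have h' : ∃ r, LeftEv c B 0 r := ⟨h.choose, h.choose_spec.2⟩
  set r := Nat.find h' with hr
  have h1 : LeftEv c B 0 r := Nat.find_spec h'
  have h2 : ∀ r' < r, ¬ LeftEv c B 0 r' := fun r' h => Nat.find_min h' h
  obtain ⟨s, hs1, hs2⟩ := h
  have h3 : r ≤ s := Nat.find_min' h' hs2
  refine ⟨r, h3.trans hs1, inter_subset_right, ?_, fun r' hr' h4 => h2 r' hr' ?_⟩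
  · refine (leftEv_congr fun i hi1 hi2 => ?_).1 h1
    rw [zero_sub] at hi1
    exact ⟨fun h => ⟨h, hi1, hi2⟩, fun h => h.1⟩
  · refine (leftEv_congr fun i hi1 hi2 => ?_).2 h4
    rw [zero_sub] at hi1
    exact ⟨fun h => ⟨h, by omega, hi2⟩, fun h => h.1⟩

theorem exists_rcls {c : ℝ} {B : Set ℤ} {n : ℕ} (h : ∃ r ≤ n, RightEv c B 0 r) :
    ∃ r ≤ n, RCls c r (B ∩ Ico 1 (1 + (r : ℤ))) := by
  have h' : ∃ r, RightEv c B 0 r := ⟨h.choose, h.choose_spec.2⟩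
  set r := Nat.find h' with hr
  have h1 : RightEv c B 0 r := Nat.find_spec h'
  have h2 : ∀ r' < r, ¬ RightEv c B 0 r' := fun r' h => Nat.find_min h' h
  obtain ⟨s, hs1, hs2⟩ := h
  have h3 : r ≤ s := Nat.find_min' h' hs2
  refine ⟨r, h3.trans hs1, inter_subset_right, ?_, fun r' hr' h4 => h2 r' hr' ?_⟩
  · refine (rightEv_congr fun i hi1 hi2 => ?_).1 h1
    rw [zero_add] at hi1 hi2
    exact ⟨fun h => ⟨h, hi1, hi2⟩, fun h => h.1⟩
  · refine (rightEv_congr fun i hi1 hi2 => ?_).2 h4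
    rw [zero_add] at hi1 hi2
    exact ⟨fun h => ⟨h, hi1, by omega⟩, fun h => h.1⟩

/-- two left classes with compatible patterns coincide -/
theorem lcls_unique {c : ℝ} {B : Set ℤ} {r r' : ℕ} {P P' : Set ℤ} (h : LCls c r P)
    (h' : LCls c r' P') (hP : B ∩ Ico (-(r : ℤ)) 0 = P) (hP' : B ∩ Ico (-(r' : ℤ)) 0 = P') :
    r = r' ∧ P = P' := by
  have key : ∀ {r r' : ℕ} {P P' : Set ℤ}, LCls c r P → LCls c r' P' →
      B ∩ Ico (-(r : ℤ)) 0 = P → B ∩ Ico (-(r' : ℤ)) 0 = P' → ¬ r < r' := by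
    intro r r' P P' h h' hP hP' hlt
    refine h'.2.2 r hlt ?_
    refine (leftEv_congr fun i hi1 hi2 => ?_).1 h.2.1
    rw [zero_sub] at hi1
    rw [← hP, ← hP']
    exact ⟨fun h => ⟨h.1, by omega, hi2⟩, fun h => ⟨h.1, hi1, hi2⟩⟩
  have e : r = r' := le_antisymm (not_lt.1 (key h' h hP' hP)) (not_lt.1 (key h h' hP hP'))
  subst e
  exact ⟨rfl, hP.symm.trans hP'⟩

theorem rcls_unique {c : ℝ} {B : Set ℤ} {r r' : ℕ} {P P' : Set ℤ} (h : RCls c r P)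
    (h' : RCls c r' P') (hP : B ∩ Ico 1 (1 + (r : ℤ)) = P)
    (hP' : B ∩ Ico 1 (1 + (r' : ℤ)) = P') : r = r' ∧ P = P' := by
  have key : ∀ {r r' : ℕ} {P P' : Set ℤ}, RCls c r P → RCls c r' P' →
      B ∩ Ico 1 (1 + (r : ℤ)) = P → B ∩ Ico 1 (1 + (r' : ℤ)) = P' → ¬ r < r' := by
    intro r r' P P' h h' hP hP' hlt
    refine h'.2.2 r hlt ?_
    refine (rightEv_congr fun i hi1 hi2 => ?_).1 h.2.1
    rw [zero_add] at hi1 hi2
    rw [← hP, ← hP']
    exact ⟨fun h => ⟨h.1, hi1, by omega⟩, fun h => ⟨h.1, hi1, hi2⟩⟩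
  have e : r = r' := le_antisymm (not_lt.1 (key h' h hP' hP)) (not_lt.1 (key h h' hP hP'))
  subst e
  exact ⟨rfl, hP.symm.trans hP'⟩

/-- pattern sets are measurable -/
theorem meas_pattern {Ω : Type*} [MeasurableSpace Ω] {S : Ω → Set ℤ}
    (hS : ∀ i, MeasurableSet {ω | i ∈ S ω}) (I P : Set ℤ) :
    MeasurableSet {ω | S ω ∩ I = P} := by
  have : {ω | S ω ∩ I = P} = ⋂ i : ℤ, {ω | (i ∈ S ω ∧ i ∈ I) ↔ i ∈ P} := by
    ext ω
    simp only [mem_ofPred_eq, mem_iInter, Set.ext_iff, mem_inter_iff]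
  rw [this]
  refine MeasurableSet.iInter fun i => ?_
  by_cases hP : i ∈ P
  · by_cases hI : i ∈ I
    · simpa only [hP, hI, and_true, iff_true] using hS i
    · simp only [hP, hI, and_false, false_iff, not_true_eq_false]
      exact MeasurableSet.empty
  · by_cases hI : i ∈ I
    · simp only [hP, hI, and_true, iff_false]
      exact (hS i).compl
    · simp only [hP, hI, and_false, iff_self]
      exact MeasurableSet.univ

/-- the index type of the classes of scale at most `n` -/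
def LIdx (c : ℝ) (n : ℕ) : Type := {x : ℕ × Finset ℤ // x.1 ≤ n ∧ LCls c x.1 (x.2 : Set ℤ)}

def RIdx (c : ℝ) (n : ℕ) : Type := {x : ℕ × Finset ℤ // x.1 ≤ n ∧ RCls c x.1 (x.2 : Set ℤ)}

instance (c : ℝ) (n : ℕ) : Countable (LIdx c n) := by unfold LIdx; infer_instance

instance (c : ℝ) (n : ℕ) : Countable (RIdx c n) := by unfold RIdx; infer_instance

/-- **Summation.**  If the product estimate holds for every pair of classes, then the one-sided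
events are decorrelated. -/
theorem hdec_of_classes {Ω : Type*} [MeasurableSpace Ω] {μ : Measure Ω} [IsProbabilityMeasure μ]
    {Bm Bp : Ω → Set ℤ} (hBm : ∀ i, MeasurableSet {ω | i ∈ Bm ω})
    (hBp : ∀ i, MeasurableSet {ω | i ∈ Bp ω}) {c C : ℝ} (hC : 0 ≤ C) (n : ℕ) (G : Set Ω)
    (h : ∀ (r s : ℕ) (P P' : Set ℤ), r ≤ n → s ≤ n → LCls c r P → RCls c s P' →
      μ ((G ∩ {ω | Bm ω ∩ Ico (-(r : ℤ)) 0 = P}) ∩ (G ∩ {ω | Bp ω ∩ Ico 1 (1 + (s : ℤ)) = P'})) ≤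
        ENNReal.ofReal C * μ {ω | Bm ω ∩ Ico (-(r : ℤ)) 0 = P} *
          μ {ω | Bp ω ∩ Ico 1 (1 + (s : ℤ)) = P'}) :
    μ.real (G ∩ {ω | (∃ r ≤ n, LeftEv c (Bm ω) 0 r) ∧ (∃ r ≤ n, RightEv c (Bp ω) 0 r)}) ≤
      C * μ.real {ω | ∃ r ≤ n, LeftEv c (Bm ω) 0 r} *
        μ.real {ω | ∃ r ≤ n, RightEv c (Bp ω) 0 r} := by
  set A : LIdx c n → Set Ω := fun i => {ω | Bm ω ∩ Ico (-(i.1.1 : ℤ)) 0 = (i.1.2 : Set ℤ)}
    with hA
  set A' : RIdx c n → Set Ω := fun i => {ω | Bp ω ∩ Ico 1 (1 + (i.1.1 : ℤ)) = (i.1.2 : Set ℤ)}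
    with hA'
  have hU : (⋃ i, A i) = {ω | ∃ r ≤ n, LeftEv c (Bm ω) 0 r} := by
    ext ω
    simp only [mem_iUnion, mem_ofPred_eq]
    constructor
    · rintro ⟨i, hi⟩
      refine ⟨i.1.1, i.2.1, (leftEv_congr fun j hj1 hj2 => ?_).1 i.2.2.2.1⟩
      rw [zero_sub] at hj1
      have hi' : Bm ω ∩ Ico (-(i.1.1 : ℤ)) 0 = (i.1.2 : Set ℤ) := hi
      rw [← hi']
      exact ⟨fun h => h.1, fun h => ⟨h, hj1, hj2⟩⟩
    · intro h
      obtain ⟨r, hr1, hr2⟩ := exists_lcls h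
      have hfin : (Bm ω ∩ Ico (-(r : ℤ)) 0).Finite := (Set.finite_Ico _ _).inter_of_right _
      refine ⟨⟨(r, hfin.toFinset), hr1, ?_⟩, ?_⟩
      · simpa using hr2
      · simp [hA]
  have hU' : (⋃ i, A' i) = {ω | ∃ r ≤ n, RightEv c (Bp ω) 0 r} := by
    ext ω
    simp only [mem_iUnion, mem_ofPred_eq]
    constructor
    · rintro ⟨i, hi⟩
      refine ⟨i.1.1, i.2.1, (rightEv_congr fun j hj1 hj2 => ?_).1 i.2.2.2.1⟩
      rw [zero_add] at hj1 hj2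
      have hi' : Bp ω ∩ Ico 1 (1 + (i.1.1 : ℤ)) = (i.1.2 : Set ℤ) := hi
      rw [← hi']
      exact ⟨fun h => h.1, fun h => ⟨h, hj1, hj2⟩⟩
    · intro h
      obtain ⟨r, hr1, hr2⟩ := exists_rcls h
      have hfin : (Bp ω ∩ Ico 1 (1 + (r : ℤ))).Finite := (Set.finite_Ico _ _).inter_of_right _
      refine ⟨⟨(r, hfin.toFinset), hr1, ?_⟩, ?_⟩
      · simpa using hr2
      · simp [hA']
  have dA : Pairwise (Function.onFun Disjoint A) := by
    intro i j hij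
    rw [Function.onFun, Set.disjoint_left]
    intro ω h1 h2
    have := lcls_unique i.2.2 j.2.2 h1 h2
    refine hij (Subtype.ext (Prod.ext this.1 ?_))
    exact_mod_cast this.2
  have dA' : Pairwise (Function.onFun Disjoint A') := by
    intro i j hij
    rw [Function.onFun, Set.disjoint_left]
    intro ω h1 h2
    have := rcls_unique i.2.2 j.2.2 h1 h2
    refine hij (Subtype.ext (Prod.ext this.1 ?_))
    exact_mod_cast this.2
  have key := decor_of_classes (μ := μ) (A := A) (A0 := fun i => G ∩ A i) (B := A')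
    (B0 := fun i => G ∩ A' i) (fun i => meas_pattern hBm _ _) (fun i => meas_pattern hBp _ _)
    dA dA' (S := G ∩ {ω | (∃ r ≤ n, LeftEv c (Bm ω) 0 r) ∧ (∃ r ≤ n, RightEv c (Bp ω) 0 r)})
    (C := ENNReal.ofReal C) (by
      rintro ω ⟨hG, hL, hR⟩
      have h1 : ω ∈ ⋃ i, A i := by rw [hU]; exact hL
      have h2 : ω ∈ ⋃ i, A' i := by rw [hU']; exact hR
      obtain ⟨i, hi⟩ := mem_iUnion.1 h1
      obtain ⟨j, hj⟩ := mem_iUnion.1 h2
      exact mem_iUnion.2 ⟨i, mem_iUnion.2 ⟨j, ⟨hG, hi⟩, ⟨hG, hj⟩⟩⟩)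
    (fun i j => h i.1.1 j.1.1 _ _ i.2.1 j.2.1 i.2.2 j.2.2)
  rw [hU, hU'] at key
  have h3 := ENNReal.toReal_mono (by finiteness) key
  rw [ENNReal.toReal_mul, ENNReal.toReal_mul, ENNReal.toReal_ofReal hC] at h3
  exact h3

end Vale.Agent.P108.H972
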