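import Vale.Agent.P108.H972.Freeze
import Vale.Agent.P108.Area.Clean

/-!
# P108: decorrelation of the one-sided events

Leaves + freezing of the decisions + area estimate for each pair of classes + summation over the
classes.
-/

open Set MeasureTheory
open scoped Classical ENNReal

namespace Vale.Agent.P108.H972

open P108C Vale.Agent.P108 Vale.Agent.P108.Dyn Vale.Agent.P108.H786 Vale.Agent.P108.H504
  Vale.Agent.P108.Area

variable {P : ℝ × ℝ → ℤ → ℕ → Prop} {R : ℕ → ℕ} {Z1 Z2 W : ℕ} {k : ℝ}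

/-! ### periodicity and measurability -/

/-- periodic measurable family of defects -/
structure PerP (P : ℝ × ℝ → ℤ → ℕ → Prop) : Prop where
  meas : ∀ o j, MeasurableSet {z | P z o j}
  per : ∀ z a b, P (z + ip a b) = P z

lemma zoneL_ip (hP : PerP P) (z : ℝ × ℝ) (a b : ℤ) :
    zoneL Z1 Z2 R (P (z + ip a b)) = zoneL Z1 Z2 R (P z) := by
  rw [hP.per]

lemma zoneR_ip (hP : PerP P) (z : ℝ × ℝ) (a b : ℤ) :
    zoneR Z1 Z2 R (P (z + ip a b)) = zoneR Z1 Z2 R (P z) := by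
  rw [hP.per]

theorem PerP.meas_zoneL (h : PerP P) (Z1 Z2 : ℕ) (R : ℕ → ℕ) (i : ℤ) :
    MeasurableSet {ω | i ∈ zoneL Z1 Z2 R (P ω)} := by
  have h1 : {ω | i ∈ zoneL Z1 Z2 R (P ω)} = ⋃ o : ℤ, ⋃ j : ℕ,
      ({ω | P ω o j} ∩
        {_ω : ℝ × ℝ | o + Z2 * R j < 0 ∧ o - Z1 * R j ≤ i ∧ i ≤ o + Z1 * R j}) := by
    ext ω
    simp only [zoneL, mem_ofPred_eq, mem_iUnion, mem_inter_iff]
  rw [h1]
  exact MeasurableSet.iUnion fun o => MeasurableSet.iUnion fun j =>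
    (h.meas o j).inter (MeasurableSet.const _)

theorem PerP.meas_zoneR (h : PerP P) (Z1 Z2 : ℕ) (R : ℕ → ℕ) (i : ℤ) :
    MeasurableSet {ω | i ∈ zoneR Z1 Z2 R (P ω)} := by
  have h1 : {ω | i ∈ zoneR Z1 Z2 R (P ω)} = ⋃ o : ℤ, ⋃ j : ℕ,
      ({ω | P ω o j} ∩
        {_ω : ℝ × ℝ | 0 < o - Z2 * R j ∧ o - Z1 * R j ≤ i ∧ i ≤ o + Z1 * R j}) := by
    ext ω
    simp only [zoneR, mem_ofPred_eq, mem_iUnion, mem_inter_iff]
  rw [h1]
  exact MeasurableSet.iUnion fun o => MeasurableSet.iUnion fun j =>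
    (h.meas o j).inter (MeasurableSet.const _)

/-! ### leaves of a point with growth -/

lemma one_le_D {p : ℤ} (hk : 10 ^ 10 ≤ k) (hp : p ≤ -1) {z : ℝ × ℝ}
    (h : Suf (ao k z) p (-1) (kap k) 3) : 1 ≤ |D (ao k z) p (-1)| := by
  have h1 := h.2 p le_rfl (by omega)
  rw [D_empty, abs_one] at h1
  have h2 : kap k ^ (-1 + 1 - p).toNat ≤ kap k := by
    have e : (-1 + 1 - p).toNat = (-1 - p).toNat + 1 := by omega
    rw [e, pow_succ]
    have h3 : kap k ^ (-1 - p).toNat ≤ 1 :=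
      pow_le_one₀ (kap_pos hk).le ((kap_le hk).trans (by norm_num))
    have := kap_pos hk
    nlinarith
  have h3 := kap_le hk
  have h4 := abs_nonneg (D (ao k z) p (-1))
  nlinarith

lemma one_le_D_right {q : ℤ} (hk : 10 ^ 10 ≤ k) (hq : 1 ≤ q) {z : ℝ × ℝ}
    (h : Pre (ao k z) 1 q (kap k) 3) : 1 ≤ |D (ao k z) 1 q| := by
  have h1 := h.2 q (by omega) le_rfl
  rw [D_empty', abs_one] at h1
  have h2 : kap k ^ (q - 1 + 1).toNat ≤ kap k := by
    have e : (q - 1 + 1).toNat = (q - 1).toNat + 1 := by omega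
    rw [e, pow_succ]
    have h3 : kap k ^ (q - 1).toNat ≤ 1 :=
      pow_le_one₀ (kap_pos hk).le ((kap_le hk).trans (by norm_num))
    have := kap_pos hk
    nlinarith
  have h3 := kap_le hk
  have h4 := abs_nonneg (D (ao k z) 1 q)
  nlinarith

/-- **The good set.** -/
structure Good (k : ℝ) (P : ℝ × ℝ → ℤ → ℕ → Prop) (R : ℕ → ℕ) (Z1 Z2 W : ℕ) (c : ℝ)
    (G : Set (ℝ × ℝ)) : Prop where
  meas : MeasurableSet G
  per : Per G
  clean : ∀ z ∈ G, 9 * Real.sqrt k ≤ |ao k z 0|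
  nearL : ∀ z ∈ G, ∀ (z' : ℝ × ℝ) (o : ℤ) (j : ℕ), o + Z2 * R j < 0 →
    (∀ i : ℤ, |i - o| ≤ W * R j → |orb k z' i - orb k z i| ≤ eps k i) → (P z' o j ↔ P z o j)
  nearR : ∀ z ∈ G, ∀ (z' : ℝ × ℝ) (o : ℤ) (j : ℕ), 0 < o - Z2 * R j →
    (∀ i : ℤ, |i - o| ≤ W * R j → |orb k z' i - orb k z i| ≤ eps k i) → (P z' o j ↔ P z o j)
  growL : ∀ (r : ℕ) (S : Set ℤ), LCls c r S → ∃ p : ℤ, p ≤ -20 ∧
    8 * p ≤ -(7 * (len Z1 Z2 W r : ℤ)) ∧
    ∀ z ∈ G, zoneL Z1 Z2 R (P z) ∩ Ico (-(r : ℤ)) 0 = S → Suf (ao k z) p (-1) (kap k) 3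
  growR : ∀ (r : ℕ) (S : Set ℤ), RCls c r S → ∃ q : ℤ, 20 ≤ q ∧
    7 * (len Z1 Z2 W r : ℤ) ≤ 8 * q ∧
    ∀ z ∈ G, zoneR Z1 Z2 R (P z) ∩ Ico 1 (1 + (r : ℤ)) = S → Pre (ao k z) 1 q (kap k) 3

/-- **Decorrelation.** -/
theorem Good.hdec {c : ℝ} {G : Set (ℝ × ℝ)} (hG : Good k P R Z1 Z2 W c G) (hk : 10 ^ 10 ≤ k)
    (hP : PerP P) (hZ : Z1 + 1 ≤ Z2) (hW : W ≤ Z2) (n : ℕ) :
    mQ.real (G ∩ {z | (∃ r ≤ n, LeftEv c (zoneL Z1 Z2 R (P z)) 0 r) ∧
        (∃ r ≤ n, RightEv c (zoneR Z1 Z2 R (P z)) 0 r)}) ≤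
      72000 * mQ.real {z | ∃ r ≤ n, LeftEv c (zoneL Z1 Z2 R (P z)) 0 r} *
        mQ.real {z | ∃ r ≤ n, RightEv c (zoneR Z1 Z2 R (P z)) 0 r} := by
  refine hdec_of_classes (fun i => hP.meas_zoneL Z1 Z2 R i) (fun i => hP.meas_zoneR Z1 Z2 R i)
    (by norm_num) n G fun r s S S' _ _ hS hS' => ?_
  obtain ⟨p, hp20, hpr, hp⟩ := hG.growL r S hS
  obtain ⟨q, hq20, hqs, hq⟩ := hG.growR s S' hS'
  set A : Set (ℝ × ℝ) := {z | zoneL Z1 Z2 R (P z) ∩ Ico (-(r : ℤ)) 0 = S} with hA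
  set B : Set (ℝ × ℝ) := {z | zoneR Z1 Z2 R (P z) ∩ Ico 1 (1 + (s : ℤ)) = S'} with hB
  have mA : MeasurableSet A := meas_pattern (fun i => hP.meas_zoneL Z1 Z2 R i) _ _
  have mB : MeasurableSet B := meas_pattern (fun i => hP.meas_zoneR Z1 Z2 R i) _ _
  have pA : Per A := by
    intro z a b
    simp only [hA, mem_ofPred_eq]
    rw [zoneL_ip hP]
  have pB : Per B := by
    intro z a b
    simp only [hB, mem_ofPred_eq]
    rw [zoneR_ip hP]
  have pGA : Per (G ∩ A) := fun z a b => and_congr (hG.per z a b) (pA z a b)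
  have pGB : Per (G ∩ B) := fun z a b => and_congr (hG.per z a b) (pB z a b)
  have hsub : (G ∩ A) ∩ (G ∩ B) ⊆ (G ∩ A) ∩ (G ∩ B) ∩ Clean k :=
    fun z hz => ⟨hz, hG.clean z hz.1.1⟩
  refine (measure_mono hsub).trans ?_
  have e72 : ENNReal.ofReal (72000 : ℝ) = (72000 : ℝ≥0∞) := by
    rw [ENNReal.ofReal_ofNat]
  rw [e72]
  refine area_clean (by linarith) (p := p) (q := q) (by omega) (by omega) (hG.meas.inter mA) mA
    (hG.meas.inter mB) mB pGA pA pGB pB ?_ ?_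
  · rintro z ⟨hz, hzA⟩
    have hsuf := hp z hz hzA
    refine ⟨one_le_D hk (by omega) hsuf, fun t ht => ?_⟩
    have hleaf := leafL (par_kap hk) (by omega : p ≤ -1) hsuf (s := t) (by linarith)
    set z' := pt k p (orb k z (p - 1), t) with hz'
    refine ⟨?_, hleaf.two_le, hleaf.le_two, ?_⟩
    · have := pattern_frozen (P := P) (R := R) (r := r) k hZ hW (ε := eps k) (z := z) (z' := z')
        (fun o j ho hcl => hG.nearL z hz z' o j ho hcl) (fun j hj1 hj2 =>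
          LeafL.close hk hp20 hleaf (by omega) hj2)
      exact this.trans hzA
    · have h1 := hleaf.suf.2 (-1) (by omega) (by omega)
      have e1 : (-1 + 1 - -1 : ℤ).toNat = 1 := by norm_num
      rw [show (-1 - 1 : ℤ) = -2 by ring, e1, pow_one] at h1
      have h2 := kap_le hk
      have h3 := abs_nonneg (D (ao k z') p (-1))
      have h4 := kap_pos hk
      nlinarith
  · rintro z ⟨hz, hzB⟩
    have hpre := hq z hz hzB
    refine ⟨one_le_D_right hk (by omega) hpre, fun t ht => ?_⟩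
    have hleaf := leafR (par_kap hk) (by omega : 1 ≤ q) hpre (s := t) (by linarith)
    set z' := pt k (q + 1) (t, orb k z (q + 1)) with hz'
    refine ⟨?_, hleaf.two_le, hleaf.le_two, ?_⟩
    · have := pattern_frozen_right (P := P) (R := R) (r := s) k hZ hW (ε := eps k) (z := z)
        (z' := z') (fun o j ho hcl => hG.nearR z hz z' o j ho hcl) (fun j hj1 hj2 =>
          LeafR.close hk hq20 hleaf hj1 (by omega))
      exact this.trans hzB
    · have h1 := hleaf.pre.2 1 (by omega) (by omega)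
      have e1 : (1 - 1 + 1 : ℤ).toNat = 1 := by norm_num
      rw [show (1 + 1 : ℤ) = 2 by ring, e1, pow_one] at h1
      have h2 := kap_le hk
      have h3 := abs_nonneg (D (ao k z') 1 q)
      have h4 := kap_pos hk
      nlinarith

end Vale.Agent.P108.H972
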