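import Vale.Agent.P108.H972.Classes
import Vale.Agent.P108.Cmb.Zones
import Vale.Agent.P108.H504.Std
import Vale.Agent.P108.Dyn.Rev

/-!
# P108: freezing of the one-sided patterns along leaves

A defect of scale `j` at time `o` has radius `R j`; it is decided by the positions at times
in `[o - W R j, o + W R j]`.
-/

open Set MeasureTheory
open scoped Classical ENNReal

namespace Vale.Agent.P108.H972

open P108C Vale.Agent.P108 Vale.Agent.P108.Dyn Vale.Agent.P108.H786 Vale.Agent.P108.H504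
  Vale.Agent.P108.Area

variable {P : ℝ × ℝ → ℤ → ℕ → Prop} {R : ℕ → ℕ} {Z1 Z2 W : ℕ}

/-- length of the window where the decisions for the pattern on `r` sites are taken -/
def len (Z1 Z2 W r : ℕ) : ℕ := r + (Z1 + W) * (r / (Z2 - Z1))

/-- a defect seen by the pattern on `[-r, 0)` has its data window inside `[-len r, -1]` -/
theorem data_window (hZ : Z1 + 1 ≤ Z2) (hW : W ≤ Z2) {r : ℕ} {i o : ℤ} {ρ : ℕ}
    (hi : -(r : ℤ) ≤ i) (ho : o + Z2 * ρ < 0) (h2 : i ≤ o + Z1 * ρ) {j : ℤ}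
    (hj : |j - o| ≤ W * ρ) : -(len Z1 Z2 W r : ℤ) ≤ j ∧ j ≤ -1 := by
  rw [abs_le] at hj
  have hd : 0 < Z2 - Z1 := by omega
  have h3 : ((Z2 - Z1 : ℕ) : ℤ) * ρ ≤ r := by
    have : ((Z2 - Z1 : ℕ) : ℤ) = Z2 - Z1 := by omega
    rw [this, sub_mul]; omega
  have h4 : ρ ≤ r / (Z2 - Z1) := by
    rw [Nat.le_div_iff_mul_le hd]
    have : (Z2 - Z1) * ρ ≤ r := by exact_mod_cast h3
    rw [mul_comm]; exact this
  have h5 : ((Z1 : ℤ) + W) * ρ ≤ (Z1 + W) * (r / (Z2 - Z1) : ℕ) :=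
    mul_le_mul_of_nonneg_left (by exact_mod_cast h4) (by positivity)
  have h6 : (W : ℤ) * ρ ≤ Z2 * ρ := by
    exact_mod_cast Nat.mul_le_mul_right _ hW
  have e : ((len Z1 Z2 W r : ℕ) : ℤ) = r + (Z1 + W) * (r / (Z2 - Z1) : ℕ) := by
    unfold len; push_cast; ring
  rw [e]
  constructor
  · rw [add_mul] at h5; omega
  · omega

/-- mirror of `data_window` -/
theorem data_window_right (hZ : Z1 + 1 ≤ Z2) (hW : W ≤ Z2) {r : ℕ} {i o : ℤ} {ρ : ℕ}
    (hi : i < 1 + (r : ℤ)) (ho : 0 < o - Z2 * ρ) (h1 : o - Z1 * ρ ≤ i)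
    {j : ℤ} (hj : |j - o| ≤ W * ρ) : 1 ≤ j ∧ j ≤ (len Z1 Z2 W r : ℤ) := by
  rw [abs_le] at hj
  have hd : 0 < Z2 - Z1 := by omega
  have h3 : ((Z2 - Z1 : ℕ) : ℤ) * ρ ≤ r := by
    have : ((Z2 - Z1 : ℕ) : ℤ) = Z2 - Z1 := by omega
    rw [this, sub_mul]; omega
  have h4 : ρ ≤ r / (Z2 - Z1) := by
    rw [Nat.le_div_iff_mul_le hd]
    have : (Z2 - Z1) * ρ ≤ r := by exact_mod_cast h3
    rw [mul_comm]; exact this
  have h5 : ((Z1 : ℤ) + W) * ρ ≤ (Z1 + W) * (r / (Z2 - Z1) : ℕ) :=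
    mul_le_mul_of_nonneg_left (by exact_mod_cast h4) (by positivity)
  have h6 : (W : ℤ) * ρ ≤ Z2 * ρ := by
    exact_mod_cast Nat.mul_le_mul_right _ hW
  have e : ((len Z1 Z2 W r : ℕ) : ℤ) = r + (Z1 + W) * (r / (Z2 - Z1) : ℕ) := by
    unfold len; push_cast; ring
  rw [e]
  constructor
  · omega
  · rw [add_mul] at h5; omega

/-- **Freezing.**  If the decisions of the defects on the left of the base are unchanged, the
pattern is unchanged. -/
theorem pattern_frozen (k : ℝ) (hZ : Z1 + 1 ≤ Z2) (hW : W ≤ Z2) {ε : ℤ → ℝ} {z z' : ℝ × ℝ} {r : ℕ}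
    (hnear : ∀ (o : ℤ) (τ : ℕ), o + Z2 * R τ < 0 →
      (∀ j : ℤ, |j - o| ≤ W * R τ → |orb k z' j - orb k z j| ≤ ε j) → (P z' o τ ↔ P z o τ))
    (hclose : ∀ j : ℤ, -(len Z1 Z2 W r : ℤ) ≤ j → j ≤ -1 → |orb k z' j - orb k z j| ≤ ε j) :
    zoneL Z1 Z2 R (P z') ∩ Ico (-(r : ℤ)) 0 = zoneL Z1 Z2 R (P z) ∩ Ico (-(r : ℤ)) 0 := by
  have key : ∀ i : ℤ, i ∈ Ico (-(r : ℤ)) 0 → ∀ (o : ℤ) (τ : ℕ), o + Z2 * R τ < 0 →
      i ≤ o + Z1 * R τ → (P z' o τ ↔ P z o τ) := by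
    intro i hi o τ ho h2
    refine hnear o τ ho fun j hj => ?_
    obtain ⟨h3, h4⟩ := data_window hZ hW hi.1 ho h2 hj
    exact hclose j h3 h4
  ext i
  constructor
  · rintro ⟨⟨o, τ, h1, h2, h3, h4⟩, hi⟩
    exact ⟨⟨o, τ, (key i hi o τ h2 h4).1 h1, h2, h3, h4⟩, hi⟩
  · rintro ⟨⟨o, τ, h1, h2, h3, h4⟩, hi⟩
    exact ⟨⟨o, τ, (key i hi o τ h2 h4).2 h1, h2, h3, h4⟩, hi⟩

/-- mirror of `pattern_frozen` -/
theorem pattern_frozen_right (k : ℝ) (hZ : Z1 + 1 ≤ Z2) (hW : W ≤ Z2) {ε : ℤ → ℝ}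
    {z z' : ℝ × ℝ} {r : ℕ}
    (hnear : ∀ (o : ℤ) (τ : ℕ), 0 < o - Z2 * R τ →
      (∀ j : ℤ, |j - o| ≤ W * R τ → |orb k z' j - orb k z j| ≤ ε j) → (P z' o τ ↔ P z o τ))
    (hclose : ∀ j : ℤ, 1 ≤ j → j ≤ (len Z1 Z2 W r : ℤ) → |orb k z' j - orb k z j| ≤ ε j) :
    zoneR Z1 Z2 R (P z') ∩ Ico 1 (1 + (r : ℤ)) = zoneR Z1 Z2 R (P z) ∩ Ico 1 (1 + (r : ℤ)) := by
  have key : ∀ i : ℤ, i ∈ Ico 1 (1 + (r : ℤ)) → ∀ (o : ℤ) (τ : ℕ), 0 < o - Z2 * R τ →
      o - Z1 * R τ ≤ i → (P z' o τ ↔ P z o τ) := by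
    intro i hi o τ ho h1
    refine hnear o τ ho fun j hj => ?_
    obtain ⟨h3, h4⟩ := data_window_right hZ hW hi.2 ho h1 hj
    exact hclose j h3 h4
  ext i
  constructor
  · rintro ⟨⟨o, τ, h1, h2, h3, h4⟩, hi⟩
    exact ⟨⟨o, τ, (key i hi o τ h2 h3).1 h1, h2, h3, h4⟩, hi⟩
  · rintro ⟨⟨o, τ, h1, h2, h3, h4⟩, hi⟩
    exact ⟨⟨o, τ, (key i hi o τ h2 h3).2 h1, h2, h3, h4⟩, hi⟩

/-! ### backward propagation with the trivial norm -/

lemma phi_lip {k : ℝ} (hk : 2 ≤ k) (x y : ℝ) : |phi k x - phi k y| ≤ (8 * k - 1) * |x - y| := by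
  unfold phi
  have h1 : |Real.sin (2 * Real.pi * x) - Real.sin (2 * Real.pi * y)| ≤
      |2 * Real.pi * x - 2 * Real.pi * y| := by
    have h := Real.lipschitzWith_sin.dist_le_mul (2 * Real.pi * x) (2 * Real.pi * y)
    rw [Real.dist_eq, Real.dist_eq] at h
    simpa using h
  have h2 : |2 * Real.pi * x - 2 * Real.pi * y| = 2 * Real.pi * |x - y| := by
    rw [← mul_sub, abs_mul, abs_of_pos (by positivity)]
  have h3 : 2 + 2 * Real.pi * k ≤ 8 * k - 1 := by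
    have := Real.pi_lt_d2
    nlinarith
  calc |2 * x + k * Real.sin (2 * Real.pi * x) - (2 * y + k * Real.sin (2 * Real.pi * y))|
      = |2 * (x - y) + k * (Real.sin (2 * Real.pi * x) - Real.sin (2 * Real.pi * y))| := by
        congr 1; ring
    _ ≤ |2 * (x - y)| + |k * (Real.sin (2 * Real.pi * x) - Real.sin (2 * Real.pi * y))| :=
        abs_add_le _ _
    _ ≤ 2 * |x - y| + k * (2 * Real.pi * |x - y|) := by
        rw [abs_mul, abs_mul, abs_of_pos (by norm_num : (0 : ℝ) < 2),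
          abs_of_pos (by linarith : 0 < k), ← h2]
        gcongr
    _ = (2 + 2 * Real.pi * k) * |x - y| := by ring
    _ ≤ (8 * k - 1) * |x - y| := mul_le_mul_of_nonneg_right h3 (abs_nonneg _)

/-- two orbits with the same position at time `p - 1` -/
theorem far_left {k : ℝ} (hk : 2 ≤ k) {z z' : ℝ × ℝ} {p : ℤ} {δ : ℝ}
    (h0 : orb k z' (p - 1) = orb k z (p - 1))
    (h1 : |orb k z' p - orb k z p| ≤ δ) (m : ℕ) :
    |orb k z' (p - 1 - m) - orb k z (p - 1 - m)| ≤ (8 * k) ^ m * δ := by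
  have hδ : 0 ≤ δ := (abs_nonneg _).trans h1
  set L : ℝ := 8 * k with hL
  have hL1 : 1 ≤ L := by linarith
  have step : ∀ j : ℤ, |orb k z' (j - 1) - orb k z (j - 1)| ≤
      (L - 1) * |orb k z' j - orb k z j| + |orb k z' (j + 1) - orb k z (j + 1)| := by
    intro j
    have e1 := orb_rec k z j
    have e2 := orb_rec k z' j
    have e3 : orb k z' (j - 1) - orb k z (j - 1) =
        (phi k (orb k z' j) - phi k (orb k z j)) - (orb k z' (j + 1) - orb k z (j + 1)) := by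
      linarith
    rw [e3]
    exact (abs_sub _ _).trans (add_le_add (phi_lip hk _ _) le_rfl)
  have key : ∀ m : ℕ, |orb k z' (p - 1 - m) - orb k z (p - 1 - m)| ≤ L ^ m * δ ∧
      |orb k z' (p - m) - orb k z (p - m)| ≤ L ^ m * δ := by
    intro m
    induction m with
    | zero =>
      simp only [Nat.cast_zero, sub_zero, pow_zero, one_mul]
      refine ⟨?_, h1⟩
      rw [h0, sub_self, abs_zero]; exact hδ
    | succ m ih =>
      obtain ⟨ih1, ih2⟩ := ih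
      have e1 : p - 1 - ((m + 1 : ℕ) : ℤ) = p - 1 - m - 1 := by push_cast; ring
      have e2 : p - ((m + 1 : ℕ) : ℤ) = p - 1 - m := by push_cast; ring
      have e3 : p - 1 - (m : ℤ) + 1 = p - m := by ring
      have hp : 0 ≤ L ^ m * δ := by positivity
      constructor
      · rw [e1]
        refine (step (p - 1 - m)).trans ?_
        rw [e3]
        have h5 : 0 ≤ L - 1 := by linarith
        calc (L - 1) * |orb k z' (p - 1 - m) - orb k z (p - 1 - m)| +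
              |orb k z' (p - m) - orb k z (p - m)|
            ≤ (L - 1) * (L ^ m * δ) + L ^ m * δ := by gcongr
          _ = L ^ (m + 1) * δ := by ring
      · rw [e2]
        refine ih1.trans ?_
        rw [pow_succ]
        nlinarith
  exact (key m).1

/-- mirror of `far_left` -/
theorem far_right {k : ℝ} (hk : 2 ≤ k) {z z' : ℝ × ℝ} {q : ℤ} {δ : ℝ}
    (h0 : orb k z' (q + 1) = orb k z (q + 1))
    (h1 : |orb k z' q - orb k z q| ≤ δ) (m : ℕ) :
    |orb k z' (q + 1 + m) - orb k z (q + 1 + m)| ≤ (8 * k) ^ m * δ := by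
  have h := far_left hk (z := Rv k z) (z' := Rv k z') (p := -q) (δ := δ)
    (by rw [orb_Rv, orb_Rv, show -(-q - 1) = q + 1 by ring]; exact h0)
    (by rw [orb_Rv, orb_Rv, neg_neg]; exact h1) m
  rw [orb_Rv, orb_Rv, show -(-q - 1 - (m : ℤ)) = q + 1 + m by ring] at h
  exact h

/-! ### closeness of two orbits on a leaf, at all sites where the decisions are taken -/

/-- closeness at the site `j`: `k^(-|j|/2)` -/
noncomputable def eps (k : ℝ) (j : ℤ) : ℝ := k ^ (-(|(j : ℝ)| / 2))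

/-- the contraction rate of the leaves -/
noncomputable def kap (k : ℝ) : ℝ := k ^ (-(3 / 4) : ℝ)

lemma kap_pos {k : ℝ} (hk : 10 ^ 10 ≤ k) : 0 < kap k := Real.rpow_pos_of_pos (by linarith) _

lemma kap_sq {k : ℝ} (hk : 10 ^ 10 ≤ k) : k * kap k ^ 2 ≤ 1 / 10 ^ 5 := by
  have hk0 : (0 : ℝ) < k := by linarith
  unfold kap
  rw [← Real.rpow_natCast, ← Real.rpow_mul hk0.le]
  have e : k * k ^ (-(3 / 4) * ((2 : ℕ) : ℝ)) = (k ^ (1 / 2 : ℝ))⁻¹ := by
    rw [← Real.rpow_neg hk0.le]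
    nth_rewrite 1 [← Real.rpow_one k]
    rw [← Real.rpow_add hk0]
    norm_num
  rw [e]
  have h : ((10 : ℝ) ^ 10) ^ (1 / 2 : ℝ) ≤ k ^ (1 / 2 : ℝ) :=
    Real.rpow_le_rpow (by norm_num) hk (by norm_num)
  have h2 : (10 : ℝ) ^ 5 = ((10 : ℝ) ^ 10) ^ (1 / 2 : ℝ) := by
    rw [← Real.rpow_natCast 10 10, ← Real.rpow_mul (by norm_num)]
    norm_num
  rw [h2, one_div ((10 ^ 10 : ℝ) ^ (1 / 2 : ℝ))]
  exact inv_anti₀ (by positivity) h

lemma kap_le {k : ℝ} (hk : 10 ^ 10 ≤ k) : kap k ≤ 1 / 16 := by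
  have h1 := kap_sq hk
  have h2 := kap_pos hk
  by_contra h
  push Not at h
  nlinarith [mul_pos h2 h2, mul_lt_mul h h.le (by norm_num) h2.le]

lemma par_kap {k : ℝ} (hk : 10 ^ 10 ≤ k) : Par k (kap k) 3 (1 / 4) := by
  have h1 := kap_sq hk
  have h2 := kap_le hk
  have h3 := kap_pos hk
  exact ⟨by linarith, h3, by linarith, by norm_num, by norm_num, by linarith, by linarith⟩

lemma eight_le {k : ℝ} (hk : 10 ^ 10 ≤ k) : 8 * k ≤ k ^ (11 / 10 : ℝ) := by
  have hk0 : (0 : ℝ) < k := by linarith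
  have e : k ^ (11 / 10 : ℝ) = k ^ (1 / 10 : ℝ) * k := by
    nth_rewrite 3 [← Real.rpow_one k]
    rw [← Real.rpow_add hk0]
    norm_num
  rw [e]
  refine mul_le_mul_of_nonneg_right ?_ hk0.le
  have h : ((10 : ℝ) ^ 10) ^ (1 / 10 : ℝ) ≤ k ^ (1 / 10 : ℝ) :=
    Real.rpow_le_rpow (by norm_num) hk (by norm_num)
  refine le_trans ?_ h
  rw [← Real.rpow_natCast, ← Real.rpow_mul (by norm_num)]
  norm_num

lemma natcast_toNat_neg {j : ℤ} (hj : j ≤ 0) : (((-j).toNat : ℕ) : ℝ) = -(j : ℝ) := by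
  have : (((-j).toNat : ℕ) : ℤ) = -j := by omega
  have h2 : ((((-j).toNat : ℕ) : ℤ) : ℝ) = ((-j : ℤ) : ℝ) := by rw [this]
  push_cast at h2
  exact h2

/-- closeness of two points of a left leaf -/
theorem LeafL.close {k : ℝ} (hk : 10 ^ 10 ≤ k) {p : ℤ} (hp : p ≤ -20) {z z' : ℝ × ℝ}
    (h : LeafL k z z' p (-1) (kap k) 3 (1 / 4)) {j : ℤ} (hj1 : 8 * p ≤ 7 * j) (hj2 : j ≤ -1) :
    |orb k z' j - orb k z j| ≤ eps k j := by
  have hk0 : 0 < k := by linarith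
  have hk1 : 1 ≤ k := by linarith
  have hclose : ∀ l, p ≤ l → l ≤ 0 → |orb k z' l - orb k z l| ≤ kap k ^ (-l).toNat := by
    intro l hl1 hl2
    have h1 := h.disp l (by omega) (by omega)
    have h2 := h.disp_le
    rw [show (-1 + 1 : ℤ) = 0 by ring] at h1 h2
    rw [show (0 - l : ℤ) = -l by ring] at h1
    have h4 : 0 ≤ kap k ^ (-l).toNat := pow_nonneg (kap_pos hk).le _
    refine h1.trans ?_
    nlinarith
  unfold eps
  have hjr : |(j : ℝ)| = -(j : ℝ) := abs_of_nonpos (by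
    have : j ≤ 0 := by omega
    exact_mod_cast this)
  rw [hjr]
  rcases le_or_gt p j with hpj | hpj
  · refine (hclose j hpj (by omega)).trans ?_
    unfold kap
    rw [← Real.rpow_natCast, ← Real.rpow_mul hk0.le]
    refine Real.rpow_le_rpow_of_exponent_le hk1 ?_
    rw [natcast_toNat_neg (by omega)]
    have h3 : (j : ℝ) ≤ 0 := by
      have : j ≤ 0 := by omega
      exact_mod_cast this
    linarith
  · obtain ⟨m, hm⟩ := Int.le.dest (show j ≤ p - 1 by omega)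
    have hjm : j = p - 1 - m := by omega
    have h2 := far_left (by linarith) (p := p) h.fix (hclose p le_rfl (by omega)) m
    rw [← hjm] at h2
    refine h2.trans ?_
    have h3 : (8 * k) ^ m ≤ (k ^ (11 / 10 : ℝ)) ^ m :=
      pow_le_pow_left₀ (by positivity) (eight_le hk) m
    unfold kap
    refine (mul_le_mul_of_nonneg_right h3 (by positivity)).trans ?_
    rw [← Real.rpow_natCast, ← Real.rpow_natCast, ← Real.rpow_mul hk0.le, ← Real.rpow_mul hk0.le,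
      ← Real.rpow_add hk0]
    refine Real.rpow_le_rpow_of_exponent_le hk1 ?_
    have e2 : (j : ℝ) = p - 1 - m := by rw [hjm]; push_cast; ring
    have e3 : (8 : ℝ) * p ≤ 7 * j := by exact_mod_cast hj1
    have e4 : (p : ℝ) ≤ -20 := by exact_mod_cast hp
    rw [natcast_toNat_neg (by omega), e2]
    rw [e2] at e3
    linarith

/-- closeness of two points of a right leaf -/
theorem LeafR.close {k : ℝ} (hk : 10 ^ 10 ≤ k) {q : ℤ} (hq : 20 ≤ q) {z z' : ℝ × ℝ}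
    (h : LeafR k z z' 1 q (kap k) 3 (1 / 4)) {j : ℤ} (hj1 : 1 ≤ j) (hj2 : 7 * j ≤ 8 * q) :
    |orb k z' j - orb k z j| ≤ eps k j := by
  have hk0 : 0 < k := by linarith
  have hk1 : 1 ≤ k := by linarith
  have ecast : ∀ l : ℤ, 0 ≤ l → ((l.toNat : ℕ) : ℝ) = (l : ℝ) := by
    intro l hl
    have : ((l.toNat : ℕ) : ℤ) = l := by omega
    exact_mod_cast this
  have hclose : ∀ l, 0 ≤ l → l ≤ q → |orb k z' l - orb k z l| ≤ kap k ^ l.toNat := by
    intro l hl1 hl2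
    have h1 := h.disp l (by omega) (by omega)
    have h2 := h.disp_le
    rw [show (1 - 1 : ℤ) = 0 by ring] at h1 h2
    rw [show (l - 1 + 1 : ℤ) = l by ring] at h1
    have h4 : 0 ≤ kap k ^ l.toNat := pow_nonneg (kap_pos hk).le _
    refine h1.trans ?_
    nlinarith
  unfold eps
  have hjr : |(j : ℝ)| = (j : ℝ) := abs_of_nonneg (by
    have : 0 ≤ j := by omega
    exact_mod_cast this)
  rw [hjr]
  have hj0 : (1 : ℝ) ≤ j := by exact_mod_cast hj1
  rcases le_or_gt j q with hpj | hpj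
  · refine (hclose j (by omega) hpj).trans ?_
    unfold kap
    rw [← Real.rpow_natCast, ← Real.rpow_mul hk0.le]
    refine Real.rpow_le_rpow_of_exponent_le hk1 ?_
    rw [ecast j (by omega)]
    linarith
  · obtain ⟨m, hm⟩ := Int.le.dest (show q + 1 ≤ j by omega)
    have hjm : j = q + 1 + m := by omega
    have h2 := far_right (by linarith) (q := q) h.fix (hclose q (by omega) le_rfl) m
    rw [← hjm] at h2
    refine h2.trans ?_
    have h3 : (8 * k) ^ m ≤ (k ^ (11 / 10 : ℝ)) ^ m :=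
      pow_le_pow_left₀ (by positivity) (eight_le hk) m
    unfold kap
    refine (mul_le_mul_of_nonneg_right h3 (by positivity)).trans ?_
    rw [← Real.rpow_natCast, ← Real.rpow_natCast, ← Real.rpow_mul hk0.le, ← Real.rpow_mul hk0.le,
      ← Real.rpow_add hk0]
    refine Real.rpow_le_rpow_of_exponent_le hk1 ?_
    have e2 : (j : ℝ) = q + 1 + m := by rw [hjm]; push_cast; ring
    have e3 : (7 : ℝ) * j ≤ 8 * q := by exact_mod_cast hj2
    have e4 : (20 : ℝ) ≤ q := by exact_mod_cast hq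
    rw [ecast q (by omega), e2]
    rw [e2] at e3
    linarith

end Vale.Agent.P108.H972
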