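import Vale.Agent.P108.H972.Decor
import Vale.Agent.P108.Cmb.Dir

/-!
# P108: reduction of the growth on leaves to growth at the Dirichlet points
-/

open Set MeasureTheory
open scoped Classical ENNReal

namespace Vale.Agent.P108.H972

open P108C Vale.Agent.P108 Vale.Agent.P108.Dyn Vale.Agent.P108.H786 Vale.Agent.P108.H504
  Vale.Agent.P108.Area

variable {P : ℝ × ℝ → ℤ → ℕ → Prop} {R : ℕ → ℕ} {Z1 Z2 W : ℕ} {k c θ : ℝ}

/-- a left event has positive mass, hence a large scale -/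
lemma LCls.large {r : ℕ} {S : Set ℤ} (h : LCls c r S) (hc : 0 < c) (hR : ∀ z o j, P z o j → 2 ≤ R j)
    (hZ : Z1 ≤ Z2) {z : ℝ × ℝ} (hS : zoneL Z1 Z2 R (P z) ∩ Ico (-(r : ℤ)) 0 = S) :
    2 * (Z2 - Z1) ≤ r := by
  have hr := h.2.1.1
  have hne : S.Nonempty := by
    by_contra hcon
    rw [not_nonempty_iff_eq_empty] at hcon
    have h1 := h.2.1.2.1
    rw [hcon, empty_inter] at h1
    have h2 : Cl c r (∅ : Set ℤ) ⊆ ∅ := by
      intro i hi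
      have h3 := Cl_Iio_subset (c := c) (n := r) hc (B := ∅) (b := i) (empty_subset _) hi
      exact absurd h3 (lt_irrefl i)
    have h3 : ms (Cl c r (∅ : Set ℤ)) (0 - r) 0 = 0 := ms_eq_zero fun i _ _ hi => h2 hi
    rw [h3, Nat.cast_zero] at h1
    have h4 : (0 : ℝ) < r := by exact_mod_cast hr
    have h5 : 0 < c ^ 2 / (1 + c) * r := by positivity
    linarith
  obtain ⟨i, hi⟩ := hne
  rw [← hS] at hi
  obtain ⟨⟨o, j, h0, h2, _, h4⟩, h5, _⟩ := hi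
  have h6 : ((Z2 - Z1 : ℕ) : ℤ) * 2 ≤ ((Z2 - Z1 : ℕ) : ℤ) * R j := by
    have := hR z o j h0
    exact_mod_cast Nat.mul_le_mul_left _ this
  have h7 : ((Z2 - Z1 : ℕ) : ℤ) * R j = Z2 * R j - Z1 * R j := by
    have : ((Z2 - Z1 : ℕ) : ℤ) = Z2 - Z1 := by omega
    rw [this, sub_mul]
  omega

lemma RCls.large {r : ℕ} {S : Set ℤ} (h : RCls c r S) (hc : 0 < c) (hR : ∀ z o j, P z o j → 2 ≤ R j)
    (hZ : Z1 ≤ Z2) {z : ℝ × ℝ} (hS : zoneR Z1 Z2 R (P z) ∩ Ico 1 (1 + (r : ℤ)) = S) :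
    2 * (Z2 - Z1) ≤ r := by
  have hr := h.2.1.1
  have hne : S.Nonempty := by
    by_contra hcon
    rw [not_nonempty_iff_eq_empty] at hcon
    have h1 := h.2.1.2.1
    rw [hcon, empty_inter] at h1
    have h2 : Cl c r (∅ : Set ℤ) ⊆ ∅ := by
      intro i hi
      have h3 := Cl_Iio_subset (c := c) (n := r) hc (B := ∅) (b := i) (empty_subset _) hi
      exact absurd h3 (lt_irrefl i)
    have h3 : ms (Cl c r (∅ : Set ℤ)) (0 + 1) (0 + 1 + r) = 0 := ms_eq_zero fun i _ _ hi => h2 hi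
    rw [h3, Nat.cast_zero] at h1
    have h4 : (0 : ℝ) < r := by exact_mod_cast hr
    have h5 : 0 < c ^ 2 / (1 + c) * r := by positivity
    linarith
  obtain ⟨i, hi⟩ := hne
  rw [← hS] at hi
  obtain ⟨⟨o, j, h0, h2, h4, _⟩, _, h5⟩ := hi
  have h6 : ((Z2 - Z1 : ℕ) : ℤ) * 2 ≤ ((Z2 - Z1 : ℕ) : ℤ) * R j := by
    have := hR z o j h0
    exact_mod_cast Nat.mul_le_mul_left _ this
  have h7 : ((Z2 - Z1 : ℕ) : ℤ) * R j = Z2 * R j - Z1 * R j := by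
    have : ((Z2 - Z1 : ℕ) : ℤ) = Z2 - Z1 := by omega
    rw [this, sub_mul]
  omega

lemma len_le (hZ : 20 * (Z1 + W) ≤ Z2 - Z1) (r : ℕ) : 20 * len Z1 Z2 W r ≤ 21 * r := by
  unfold len
  rcases Nat.eq_zero_or_pos (Z2 - Z1) with h | h
  · rw [h, Nat.div_zero]; omega
  have h1 : 20 * (Z1 + W) * (r / (Z2 - Z1)) ≤ (Z2 - Z1) * (r / (Z2 - Z1)) :=
    Nat.mul_le_mul_right _ hZ
  have h2 : (Z2 - Z1) * (r / (Z2 - Z1)) ≤ r := Nat.mul_div_le _ _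
  have h3 : 20 * ((Z1 + W) * (r / (Z2 - Z1))) = 20 * (Z1 + W) * (r / (Z2 - Z1)) := by ring
  omega

/-- arithmetic of the Dirichlet point -/
lemma dirichlet_arith (hc : 0 < c) (hθ : 40 * c ≤ θ) (hZ : 20 * (Z1 + W) ≤ Z2 - Z1)
    {r : ℕ} (hr : 100 ≤ r) {q : ℤ} (h1 : θ * (((r : ℤ) - 1 - q : ℤ) : ℝ) ≤ c * ((r : ℝ) - 1)) :
    20 ≤ q ∧ 7 * (len Z1 Z2 W r : ℤ) ≤ 8 * q := by
  have hlen := len_le (r := r) hZ
  have h2 : 40 * (((r : ℤ) - 1 - q : ℤ) : ℝ) ≤ (r : ℝ) - 1 := by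
    by_contra hcon
    push Not at hcon
    have h3 : (0 : ℝ) < (((r : ℤ) - 1 - q : ℤ) : ℝ) := by
      have : (100 : ℝ) ≤ r := by exact_mod_cast hr
      linarith
    have h4 : c * (40 * (((r : ℤ) - 1 - q : ℤ) : ℝ)) ≤ θ * (((r : ℤ) - 1 - q : ℤ) : ℝ) := by
      have := mul_le_mul_of_nonneg_right hθ h3.le
      linarith
    have h5 := mul_lt_mul_of_pos_left hcon hc
    linarith
  have h3 : 40 * ((r : ℤ) - 1 - q) ≤ (r : ℤ) - 1 := by exact_mod_cast h2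
  have h4 : (100 : ℤ) ≤ r := by exact_mod_cast hr
  have h5 : 20 * (len Z1 Z2 W r : ℤ) ≤ 21 * r := by exact_mod_cast hlen
  constructor
  · omega
  · omega

/-- growth at the Dirichlet points gives the growth condition of the good set -/
theorem growL_of_suf {G : Set (ℝ × ℝ)} (hc : 0 < c) (hθ : 40 * c ≤ θ)
    (hZ : 20 * (Z1 + W) ≤ Z2 - Z1) (hZ50 : 50 ≤ Z2 - Z1)
    (hR : ∀ z o j, P z o j → 2 ≤ R j)
    (h : ∀ z ∈ G, ∀ (r : ℕ) (p : ℤ), LeftEv c (zoneL Z1 Z2 R (P z)) 0 r → 100 ≤ r →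
      -(r : ℤ) < p → 2 * p ≤ -(r : ℤ) →
      (∀ y : ℕ, 1 ≤ y → p + y ≤ 0 →
        (ms (Cl c r (zoneL Z1 Z2 R (P z) ∩ Ico (-(r : ℤ)) 0)) p (p + y) : ℝ) < θ * y) →
      Suf (ao k z) p (-1) (kap k) 3) :
    ∀ (r : ℕ) (S : Set ℤ), LCls c r S → ∃ p : ℤ, p ≤ -20 ∧
      8 * p ≤ -(7 * (len Z1 Z2 W r : ℤ)) ∧
      ∀ z ∈ G, zoneL Z1 Z2 R (P z) ∩ Ico (-(r : ℤ)) 0 = S → Suf (ao k z) p (-1) (kap k) 3 := by
  intro r S hS
  by_cases hex : ∃ z ∈ G, zoneL Z1 Z2 R (P z) ∩ Ico (-(r : ℤ)) 0 = S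
  · obtain ⟨z0, _, hz0⟩ := hex
    have hr : 2 * (Z2 - Z1) ≤ r := hS.large hc hR (by omega) hz0
    have hθ0 : 0 < θ := by linarith
    obtain ⟨b, hb1, hb2, hb3, hb4⟩ := hS.2.1.exists_dirichlet hθ0
    have e1 : ((r - 1 : ℕ) : ℤ) = (r : ℤ) - 1 := by omega
    rw [e1] at hb1 hb3
    have h1 : θ * (((r : ℤ) - 1 - -b : ℤ) : ℝ) ≤ c * ((r : ℝ) - 1) := by
      have e2 : (r : ℤ) - 1 - -b = b - (0 - ((r : ℤ) - 1)) := by ring
      rw [e2]; exact hb3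
    obtain ⟨h2, h3⟩ := dirichlet_arith (W := W) hc hθ hZ (by omega : 100 ≤ r) h1
    have hlen : (r : ℤ) ≤ (len Z1 Z2 W r : ℤ) := by
      unfold len
      push_cast
      have : (0 : ℤ) ≤ (Z1 + W) * ((r / (Z2 - Z1) : ℕ) : ℤ) := by positivity
      push_cast at this
      linarith
    refine ⟨b, by omega, by omega, fun z hz hzS => ?_⟩
    refine h z hz r b ?_ (by omega) (by omega) (by omega) ?_
    · refine (leftEv_congr fun i hi1 hi2 => ?_).2 hS.2.1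
      rw [zero_sub] at hi1
      rw [← hzS]
      exact ⟨fun h => ⟨h, hi1, hi2⟩, fun h => h.1⟩
    · intro y hy1 hy2
      have := hb4 y hy1 hy2
      rw [zero_sub] at this
      rw [hzS]
      have e3 : S ∩ Ico (-(r : ℤ)) 0 = S := inter_eq_left.2 hS.1
      rwa [e3] at this
  · push Not at hex
    refine ⟨-(20 + len Z1 Z2 W r : ℤ), by omega, by omega, fun z hz hzS => ?_⟩
    exact absurd hzS (hex z hz)

/-- mirror of `growL_of_suf` -/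
theorem growR_of_pre {G : Set (ℝ × ℝ)} (hc : 0 < c) (hθ : 40 * c ≤ θ)
    (hZ : 20 * (Z1 + W) ≤ Z2 - Z1) (hZ50 : 50 ≤ Z2 - Z1)
    (hR : ∀ z o j, P z o j → 2 ≤ R j)
    (h : ∀ z ∈ G, ∀ (r : ℕ) (q : ℤ), RightEv c (zoneR Z1 Z2 R (P z)) 0 r → 100 ≤ r →
      q < (r : ℤ) → (r : ℤ) ≤ 2 * q →
      (∀ y : ℕ, 1 ≤ y → 1 ≤ q + 1 - y →
        (ms (Cl c r (zoneR Z1 Z2 R (P z) ∩ Ico 1 (1 + (r : ℤ)))) (q + 1 - y) (q + 1) : ℝ) <
          θ * y) →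
      Pre (ao k z) 1 q (kap k) 3) :
    ∀ (r : ℕ) (S : Set ℤ), RCls c r S → ∃ q : ℤ, 20 ≤ q ∧
      7 * (len Z1 Z2 W r : ℤ) ≤ 8 * q ∧
      ∀ z ∈ G, zoneR Z1 Z2 R (P z) ∩ Ico 1 (1 + (r : ℤ)) = S → Pre (ao k z) 1 q (kap k) 3 := by
  intro r S hS
  by_cases hex : ∃ z ∈ G, zoneR Z1 Z2 R (P z) ∩ Ico 1 (1 + (r : ℤ)) = S
  · obtain ⟨z0, _, hz0⟩ := hex
    have hr : 2 * (Z2 - Z1) ≤ r := hS.large hc hR (by omega) hz0
    have hθ0 : 0 < θ := by linarith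
    obtain ⟨b, hb1, hb2, hb3, hb4⟩ := hS.2.1.exists_dirichlet hθ0
    rw [zero_add] at hb1 hb2 hb3 hb4
    have h1 : θ * (((r : ℤ) - 1 - (b - 1) : ℤ) : ℝ) ≤ c * ((r : ℝ) - 1) := by
      have e2 : (r : ℤ) - 1 - (b - 1) = r - b := by ring
      rw [e2]
      exact hb3
    obtain ⟨h2, h3⟩ := dirichlet_arith (W := W) hc hθ hZ (by omega : 100 ≤ r) h1
    have hlen : (r : ℤ) ≤ (len Z1 Z2 W r : ℤ) := by
      unfold len
      push_cast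
      have : (0 : ℤ) ≤ (Z1 + W) * ((r / (Z2 - Z1) : ℕ) : ℤ) := by positivity
      push_cast at this
      linarith
    refine ⟨b - 1, by omega, by omega, fun z hz hzS => ?_⟩
    refine h z hz r (b - 1) ?_ (by omega) (by omega) (by omega) ?_
    · refine (rightEv_congr fun i hi1 hi2 => ?_).2 hS.2.1
      rw [zero_add] at hi1 hi2
      rw [← hzS]
      exact ⟨fun h => ⟨h, hi1, hi2⟩, fun h => h.1⟩
    · intro y hy1 hy2
      rw [sub_add_cancel] at hy2 ⊢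
      have := hb4 y hy1 hy2
      rw [hzS]
      have e3 : S ∩ Ico 1 (1 + (r : ℤ)) = S := inter_eq_left.2 hS.1
      rwa [e3] at this
  · push Not at hex
    refine ⟨20 + len Z1 Z2 W r, by omega, by omega, fun z hz hzS => ?_⟩
    exact absurd hzS (hex z hz)

end Vale.Agent.P108.H972
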